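import Vale.Agent.P355.H639.Three

/-!
# From an upper bound for the number of mutually unbiased bases to the value of `N(6)`

`MUBs6 n`: there are `n` pairwise mutually unbiased orthonormal bases of `ℂ⁶`. (helper639)
-/

namespace Vale.Agent.P355.H639

/-- There are `n` pairwise mutually unbiased orthonormal bases `v 0, …, v (n-1)` of `ℂ⁶`
(`v i k` is the `k`-th vector of the `i`-th basis). -/
def MUBs6 (n : ℕ) : Prop :=
  ∃ v : Fin n → Fin 6 → Fin 6 → ℂ,
    (∀ i k l, ∑ r, star (v i k r) * v i l r = if k = l then 1 else 0) ∧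
    (∀ i j, i ≠ j → ∀ k l, ‖∑ r, star (v i k r) * v j l r‖ ^ 2 = 1 / 6)

lemma mubs6_three : MUBs6 3 := three_mubs

lemma mubs6_mono {m n : ℕ} (h : m ≤ n) (hn : MUBs6 n) : MUBs6 m := by
  obtain ⟨v, hv, hu⟩ := hn
  exact ⟨fun i => v (Fin.castLE h i), fun i k l => hv _ k l, fun i j hij k l =>
    hu _ _ (fun e => hij (Fin.castLE_injective h e)) k l⟩

/-- If there are at most three mutually unbiased bases, then `N(6) = 3`. -/
theorem isGreatest_three (h : ∀ (n : ℕ) (v : Fin n → Fin 6 → Fin 6 → ℂ),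
    (∀ i k l, ∑ r, star (v i k r) * v i l r = if k = l then 1 else 0) →
    (∀ i j, i ≠ j → ∀ k l, ‖∑ r, star (v i k r) * v j l r‖ ^ 2 = 1 / 6) → n ≤ 3) :
    IsGreatest {n | MUBs6 n} 3 :=
  ⟨mubs6_three, fun n ⟨v, hv, hu⟩ => h n v hv hu⟩

/-- If there are at most four mutually unbiased bases, then `N(6)` is `3` or `4`. -/
theorem isGreatest_three_or_four (h : ∀ (n : ℕ) (v : Fin n → Fin 6 → Fin 6 → ℂ),
    (∀ i k l, ∑ r, star (v i k r) * v i l r = if k = l then 1 else 0) →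
    (∀ i j, i ≠ j → ∀ k l, ‖∑ r, star (v i k r) * v j l r‖ ^ 2 = 1 / 6) → n ≤ 4) :
    IsGreatest {n | MUBs6 n} 3 ∨ IsGreatest {n | MUBs6 n} 4 := by
  by_cases h4 : MUBs6 4
  · exact Or.inr ⟨h4, fun n ⟨v, hv, hu⟩ => h n v hv hu⟩
  · refine Or.inl ⟨mubs6_three, fun n hn => ?_⟩
    have h1 : n ≤ 4 := by
      obtain ⟨v, hv, hu⟩ := hn
      exact h n v hv hu
    by_contra h2
    exact h4 (mubs6_mono (by omega) hn)

end Vale.Agent.P355.H639
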