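import Mathlib.Analysis.SpecialFunctions.Complex.Circle
import Mathlib.Data.ZMod.Basic
import Mathlib.Tactic

/-!
# Three mutually unbiased bases of `ℂ⁶`

The standard basis, the Fourier basis `f_k(r) = ζ^(2kr)/√6` and the basis
`g_k(r) = ζ^(r² + 2kr)/√6`, where `ζ = e^(2πi/12)`. (helper639)
-/

namespace Vale.Agent.P355.H639

open Complex Finset

/-- `i`, written as `ζ³`. -/
noncomputable def zt : ℂ := ⟨Real.sqrt 3 / 2, 1 / 2⟩

lemma sq3 : Real.sqrt 3 * Real.sqrt 3 = 3 := Real.mul_self_sqrt (by norm_num)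

lemma zt_sq : zt ^ 2 = ⟨1 / 2, Real.sqrt 3 / 2⟩ := by
  have h := sq3
  apply Complex.ext <;> simp [zt, pow_two]
  · nlinarith
  · ring

lemma zt_cube : zt ^ 3 = I := by
  have h := sq3
  rw [pow_succ, zt_sq]
  apply Complex.ext <;> simp [zt]
  · ring
  · nlinarith

lemma zt_four : zt ^ 4 = zt ^ 2 - 1 := by
  have h := sq3
  rw [pow_succ, zt_cube, zt_sq]
  apply Complex.ext
  · simp [zt]; ring
  · simp [zt]

lemma zt_star : star zt * zt = 1 := by
  have h := sq3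
  apply Complex.ext <;> simp [zt]
  · nlinarith
  · ring

/-- Coordinates of `ζ^k` in the basis `1, ζ, ζ², ζ³`. -/
def P : Fin 12 → ℤ × ℤ × ℤ × ℤ :=
  ![(1, 0, 0, 0), (0, 1, 0, 0), (0, 0, 1, 0), (0, 0, 0, 1), (-1, 0, 1, 0), (0, -1, 0, 1),
    (-1, 0, 0, 0), (0, -1, 0, 0), (0, 0, -1, 0), (0, 0, 0, -1), (1, 0, -1, 0), (0, 1, 0, -1)]

/-- The element of `ℤ[ζ]` with given coordinates. -/
noncomputable def toC : ℤ × ℤ × ℤ × ℤ →+ ℂ where
  toFun q := q.1 + q.2.1 * zt + q.2.2.1 * zt ^ 2 + q.2.2.2 * zt ^ 3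
  map_zero' := by simp
  map_add' a b := by simp only [Prod.fst_add, Prod.snd_add]; push_cast; ring

lemma toC_P (k : Fin 12) : toC (P k) = zt ^ (k : ℕ) := by
  have h4 := zt_four
  have h5 : zt ^ 5 = zt ^ 3 - zt := by rw [pow_succ, h4]; ring
  have h6 : zt ^ 6 = -1 := by rw [show zt ^ 6 = zt ^ 4 * zt ^ 2 by ring, h4]; linear_combination h4
  fin_cases k <;> simp [toC, P]
  · linear_combination -h4
  · linear_combination -h5
  · linear_combination -h6
  · linear_combination (-zt) * h6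
  · linear_combination (-zt ^ 2) * h6
  · linear_combination (-zt ^ 3) * h6
  · linear_combination (-zt ^ 4) * h6 + h4
  · linear_combination (-zt ^ 5) * h6 + h5

lemma zt12 : zt ^ 12 = 1 := by
  have h4 := zt_four
  have h6 : zt ^ 6 = -1 := by rw [show zt ^ 6 = zt ^ 4 * zt ^ 2 by ring, h4]; linear_combination h4
  rw [show zt ^ 12 = zt ^ 6 * zt ^ 6 by ring, h6]; ring

lemma star_mul_pow (a b : Fin 12) : star (zt ^ (a : ℕ)) * zt ^ (b : ℕ) =
    zt ^ ((b - a : Fin 12) : ℕ) := by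
  have hu : star (zt ^ (a : ℕ)) * zt ^ (a : ℕ) = 1 := by
    rw [star_pow, ← mul_pow, zt_star, one_pow]
  have hz : zt ^ (a : ℕ) ≠ 0 := fun h => by rw [h, mul_zero] at hu; exact zero_ne_one hu
  have hb : zt ^ ((b - a : Fin 12) : ℕ) * zt ^ (a : ℕ) = zt ^ (b : ℕ) := by
    rw [← pow_add]
    have : (((b - a : Fin 12) : ℕ) + (a : ℕ)) % 12 = (b : ℕ) := by
      have := congrArg Fin.val (sub_add_cancel b a)
      rwa [Fin.val_add] at this
    rw [← Nat.div_add_mod (((b - a : Fin 12) : ℕ) + (a : ℕ)) 12, this, pow_add, pow_mul, zt12,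
      one_pow, one_mul]
  rw [← hb, mul_comm (zt ^ _) (zt ^ (a : ℕ)), ← mul_assoc, hu, one_mul]

lemma sum_zero (a : Fin 6 → Fin 12) (h : ∑ r, P (a r) = 0) :
    ∑ r, zt ^ ((a r : Fin 12) : ℕ) = 0 := by
  simp only [← toC_P, ← map_sum, h, map_zero]

lemma normSq_sum (a : Fin 6 → Fin 12) (h : ∑ r, ∑ s, P (a s - a r) = (6, 0, 0, 0)) :
    ‖∑ r, zt ^ ((a r : Fin 12) : ℕ)‖ ^ 2 = 6 := by
  have h1 : star (∑ r, zt ^ ((a r : Fin 12) : ℕ)) * (∑ r, zt ^ ((a r : Fin 12) : ℕ)) = 6 := by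
    rw [star_sum, sum_mul_sum]
    simp only [star_mul_pow]
    simp only [← toC_P, ← map_sum, h]
    simp [toC]
  have h2 : (star (∑ r, zt ^ ((a r : Fin 12) : ℕ)) * (∑ r, zt ^ ((a r : Fin 12) : ℕ)) : ℂ) =
      ((‖∑ r, zt ^ ((a r : Fin 12) : ℕ)‖ ^ 2 : ℝ) : ℂ) := by
    rw [← Complex.normSq_eq_norm_sq, Complex.normSq_eq_conj_mul_self]; rfl
  rw [h1] at h2
  exact_mod_cast h2.symm

/-- The exponents of the bases `1` and `2`. -/
def ex (i : Fin 3) (k r : Fin 6) : Fin 12 :=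
  if i = 1 then Fin.ofNat 12 (2 * k * r) else Fin.ofNat 12 (r * r + 2 * k * r)

/-- The three bases. -/
noncomputable def B3 (i : Fin 3) (k r : Fin 6) : ℂ :=
  if i = 0 then (if k = r then 1 else 0) else ((Real.sqrt 6 : ℝ) : ℂ)⁻¹ * zt ^ ((ex i k r : Fin 12) : ℕ)

lemma s6 : ((Real.sqrt 6 : ℝ) : ℂ)⁻¹ * ((Real.sqrt 6 : ℝ) : ℂ)⁻¹ = 1 / 6 := by
  rw [← mul_inv, ← Complex.ofReal_mul, Real.mul_self_sqrt (by norm_num)]; norm_num

lemma star_s6 : star (((Real.sqrt 6 : ℝ) : ℂ)⁻¹) = ((Real.sqrt 6 : ℝ) : ℂ)⁻¹ := by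
  rw [star_inv₀]; congr 1; exact Complex.conj_ofReal _

lemma inner_ne (i j : Fin 3) (hi : i ≠ 0) (hj : j ≠ 0) (k l : Fin 6) :
    ∑ r, star (B3 i k r) * B3 j l r = 1 / 6 * ∑ r, zt ^ ((ex j l r - ex i k r : Fin 12) : ℕ) := by
  rw [mul_sum]
  refine sum_congr rfl fun r _ => ?_
  simp only [B3, if_neg hi, if_neg hj, star_mul', star_s6]
  rw [← star_mul_pow, ← s6]; ring

lemma norm_zt (n : ℕ) : ‖zt ^ n‖ = 1 := by
  have h : ‖zt‖ = 1 := by
    have := congrArg norm zt_star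
    rw [norm_mul, norm_star, norm_one] at this
    nlinarith [norm_nonneg zt]
  rw [norm_pow, h, one_pow]

lemma inner_zero (j : Fin 3) (k l : Fin 6) : ∑ r, star (B3 0 k r) * B3 j l r = B3 j l k := by
  simp [B3, apply_ite (star : ℂ → ℂ), eq_comm (a := k) (b := l)]

lemma B3_norm (j : Fin 3) (hj : j ≠ 0) (l k : Fin 6) : ‖B3 j l k‖ ^ 2 = 1 / 6 := by
  simp only [B3, if_neg hj, norm_mul, norm_zt, norm_inv, Complex.norm_real, mul_one]
  rw [Real.norm_of_nonneg (Real.sqrt_nonneg 6), inv_pow, Real.sq_sqrt (by norm_num)]; norm_num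

/-- The three bases are orthonormal. -/
lemma B3_orth (i : Fin 3) (k l : Fin 6) :
    ∑ r, star (B3 i k r) * B3 i l r = if k = l then 1 else 0 := by
  by_cases hi : i = 0
  · subst hi; rw [inner_zero]; simp [B3, eq_comm]
  rw [inner_ne i i hi hi]
  by_cases hkl : k = l
  · subst hkl; simp
  · rw [if_neg hkl, sum_zero (fun r => ex i l r - ex i k r), mul_zero]
    revert i k l; decide

/-- Two different bases are unbiased. -/
lemma B3_unb (i j : Fin 3) (hij : i ≠ j) (k l : Fin 6) :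
    ‖∑ r, star (B3 i k r) * B3 j l r‖ ^ 2 = 1 / 6 := by
  by_cases hi : i = 0
  · subst hi; rw [inner_zero, B3_norm j (Ne.symm hij)]
  by_cases hj : j = 0
  · subst hj
    have : ∑ r, star (B3 i k r) * B3 0 l r = star (∑ r, star (B3 0 l r) * B3 i k r) := by
      rw [star_sum]; exact sum_congr rfl fun r _ => by rw [star_mul', star_star, mul_comm]
    rw [this, norm_star, inner_zero, B3_norm i hi]
  rw [inner_ne i j hi hj, norm_mul, mul_pow,
    normSq_sum (fun r => ex j l r - ex i k r)]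
  · norm_num
  · revert i j k l; decide

/-- There are three mutually unbiased bases of `ℂ⁶`. -/
theorem three_mubs : ∃ v : Fin 3 → Fin 6 → Fin 6 → ℂ,
    (∀ i k l, ∑ r, star (v i k r) * v i l r = if k = l then 1 else 0) ∧
    (∀ i j, i ≠ j → ∀ k l, ‖∑ r, star (v i k r) * v j l r‖ ^ 2 = 1 / 6) :=
  ⟨B3, B3_orth, B3_unb⟩

end Vale.Agent.P355.H639
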